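import Crest.Agent.X212.Tgeo51.Main_Mg

/-!
# Row 212, TAUB-S (helper74): the stable solution of a symplectic manifold
-/

set_option autoImplicit false
set_option linter.unusedSectionVars false
noncomputable section
open scoped Manifold ContDiff Topology InnerProductSpace
open MeasureTheory Set Function Filter Finset

namespace Crest.Agent.X212.Tbs74
open An An.Pre Sob92 Sw Map77.S Rad94 Wz78
open M (Mf)

variable {κ lam ν : Type} [Fintype κ] [Fintype lam] [Fintype ν] [DecidableEq ν] {X : Mf 4}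
  {b : Bg X.I X.M κ lam ν 0} {θ : Option κ → Option κ → X.M → ℝ} {u : X.M → Eu ν}
  {c₀ c : Sw.Cfg X.M κ ν} {om f : X.M → F2 κ}

/-- the canonical connection -/
theorem TP.can (H : TP b θ u) : ∃ a, b.Adm ⟨a, u⟩ ∧ Par b ⟨a, u⟩ := by
  have pu : ∀ x, b.pp x (u x) = u x := fun x =>
    St29.U0.pp_Q (Sw88.p8 H.ok x) (H.ak.cx x) (H.ak.sd x) (H.Q x)
  have h0 : b.Adm ⟨0, u⟩ := ⟨fun _ => contMDiff_const, H.sm, fun i x => by simp, pu⟩
  have C := (Sw88.cm H.ok h0).cc.toCon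
  refine ⟨fun i x => -⟪b.m.J (u x), nab X.I b.F.e (b.W ⟨0, u⟩) i u x⟫_ℝ, ⟨fun i x =>
    (Sep15.S.sa_inner (SA.clm _ (H.sm x)) (sm_nab (fun a y => C.sm a y) i H.sm x)).neg, H.sm,
    fun i x => ?_, pu⟩, fun i x => ?_⟩
  · simp only [nab]
    rw [← (frm b.F).projD i u x, ← C.proj i x, ← H.ok.G.P]
    simp only [mul_neg, sum_neg_distrib, inner_add_right, inner_sum, _root_.sum_apply, smul_apply,
      real_inner_smul_right, mul_add, sum_add_distrib]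
  · rw [St29.U0.nab_chg ⟨0, u⟩ _ (St29.U0.pu H x), inner_add_right, real_inner_smul_right,
      real_inner_self_eq_norm_sq, St29.U0.nJ H]
    simp

theorem sol_wo (h0 : ∀ x, b.eC c₀ x = om x - b.om x) :
    (wo b om).Sol ⟨0, 0, 0⟩ c ↔ b.Adm c ∧ b.eD c = 0 ∧ b.eC c = b.eC c₀ := by
  have e : ∀ x, (wo b om).eC c x = b.eC c x - b.eC c₀ x := fun x => by
    rw [h0]; exact (sub_sub_sub_cancel_right _ _ _).symm
  exact ⟨fun h => ⟨⟨h.sa, h.sΦ, h.pa, h.pΦ⟩, funext fun x => (h.eq x trivial).1,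
    funext fun x => sub_eq_zero.1 ((e x).symm.trans (h.eq x trivial).2)⟩,
    fun h => ⟨⟨h.1.sa, h.1.sΦ, h.1.pa, h.1.pΦ⟩, fun x _ => ⟨congrFun h.2.1 x,
      (e x).trans (sub_eq_zero.2 (congrFun h.2.2 x))⟩, fun j => j.elim0⟩⟩

theorem sol_sft (hw : b.w = 1) (h0 : ∀ x, b.eC c₀ x = om x - b.om x) :
    (sft (wo b om) f 1).Sol ⟨0, 0, 0⟩ c ↔
      b.Adm c ∧ b.eD c = 0 ∧ ∀ x, b.eC c x = b.eC c₀ x + f x := by
  have e : ∀ x, (sft (wo b om) f 1).eC c x = b.eC c x - (b.eC c₀ x + f x) := fun x => by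
    rw [h0, Bg.eC, Bg.eC, hw, sub_add_eq_add_sub]; exact (sub_sub_sub_cancel_right _ _ _).symm
  exact ⟨fun h => ⟨⟨h.sa, h.sΦ, h.pa, h.pΦ⟩, funext fun x => (h.eq x trivial).1,
    fun x => sub_eq_zero.1 ((e x).symm.trans (h.eq x trivial).2)⟩,
    fun h => ⟨⟨h.1.sa, h.1.sΦ, h.1.pa, h.1.pΦ⟩, fun x _ => ⟨congrFun h.2.1 x,
      (e x).trans (sub_eq_zero.2 (h.2.2 x))⟩, fun j => j.elim0⟩⟩

theorem eD_sc (h : b.Adm c) (s : ℝ) (x : X.M) : b.eD (sc c s) x = s • b.eD c x := by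
  have e : ∀ i, nab X.I b.F.e (b.W (sc c s)) i (sc c s).Φ x = s • nab X.I b.F.e (b.W c) i c.Φ x :=
    fun i => nab_csmul i s (h.sΦ x)
  simp only [Bg.eD, dir, e, map_smul, smul_add, smul_sum]
  exact congrArg _ (map_smul _ _ _)

/-- **T-AN** -/
theorem an (lu : LuStmt κ lam ν) (ex : ExStmt κ lam ν) (u0 : U0Stmt κ lam ν)
    (cl : ClStmt κ lam ν) : AnStmt κ lam ν := fun X _ _ b θ u H => by
  obtain ⟨a, ha, hp⟩ := H.can
  have hb := H.ok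
  have U : U1 b ⟨a, u⟩ := ⟨hb, H.w, ha, H.one⟩
  obtain ⟨s₁, h₁⟩ := lu X b _ U
  obtain ⟨s₂, h₂⟩ := ex X b _ U
  obtain ⟨d0, q0, s₃, h₃⟩ := u0 X b θ ⟨a, u⟩ H ha hp
  obtain ⟨n, hn⟩ := exists_nat_gt (max (max s₁ s₂) (max s₃ 0))
  simp only [max_lt_iff] at hn
  refine ⟨a, ha, 2 * n ^ 2, fun r hr om hom => ?_⟩
  obtain ⟨s, hs, e⟩ : ∃ s : ℝ, n ≤ s ∧ s * s = 8 * (r / 2 : ℕ) := by
    refine ⟨√(8 * (r / 2 : ℕ)), Real.le_sqrt_of_sq_le ?_, Real.mul_self_sqrt (by positivity)⟩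
    exact_mod_cast (show n ^ 2 ≤ 8 * (r / 2) by omega)
  have s0 : 0 < s := by linarith [hn.2.2]
  have a0 := adm_sc ha s
  have h0 : ∀ x, b.eC (sc ⟨a, u⟩ s) x = om x - b.om x := fun x => by
    rw [hom]
    refine congrArg (fun z => b.p2 x z - b.om x) ?_
    ext t
    have := q0 x t
    simp only [sc, Sw88.qd_smul, H.w, e, one_smul, PiLp.sub_apply, PiLp.add_apply, PiLp.smul_apply,
      smul_eq_mul, nsmul_eq_mul] at this ⊢
    rw [this]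
    exact (by intros; ring : ∀ p q z : ℝ, p - 8 * q * (-z / 8) = p + q * z) _ _ _
  have D0 : b.eD (sc ⟨a, u⟩ s) = 0 := funext fun x => by rw [eD_sc ha, d0]; simp
  have ok : (wo b om).OK := ⟨hb.B, hb.G, hb.tame, hb.m, hb.cc, hb.sk, hb.AJ, hb.co, hb.cp, hb.cρ,
    hb.cA, hb.cms, cb_of (b := b) (by
      rw [show om = fun x => b.eC (sc ⟨a, u⟩ s) x + b.om x from funext fun x => by
        rw [h0, sub_add_cancel]]
      exact ((inB hb).eC (c := fun _ => sc ⟨a, u⟩ s) (fun i _ _ => cb_of (a0.sa i))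
        (fun _ _ => cb_of a0.sΦ) () trivial).choose_spec.1.add hb.com.choose_spec.1),
    hb.msJ, hb.msp, fun x => by
      change b.p2 x (om x) = om x
      rw [hom, Sw88.p2_p2 hb], hb.w, fun j => j.elim0⟩
  have n0 : ∀ x, ‖(sc ⟨a, u⟩ s).Φ x‖ = s := fun x => by
    simp only [sc, norm_smul, H.one, mul_one, Real.norm_eq_abs, abs_of_pos s0]
  obtain ⟨δ, δ0, L⟩ := h₁ s (by linarith [hn.1.1])
  obtain ⟨j₁, η₁, p₁, E⟩ := h₂ s (by linarith [hn.1.2])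
  obtain ⟨j₂, η₂, p₂, C⟩ := cl X (wo b om) (sc ⟨a, u⟩ s) ok H.w H.ms
    ((sol_wo h0).2 ⟨a0, D0, rfl⟩) (fun x => norm_pos_iff.1 ((n0 x).symm ▸ s0))
    (fun c hc => have k := (sol_wo h0).1 hc; h₃ s (by linarith [hn.2.1]) c k.1 k.2.1 k.2.2)
    (min δ (s / 2)) (by positivity)
  refine ⟨max j₁ j₂, min η₁ η₂, by positivity, fun f hf hc => ?_⟩
  obtain ⟨c, c1, c2, c3⟩ := E f hf (CB_mono (CB_of_le hc (le_max_left _ _)) (min_le_left _ _))
  have N : ∀ c, (sft (wo b om) f 1).Sol ⟨0, 0, 0⟩ c → ∃ v, Gau X.I v ∧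
      Nr b (sc ⟨a, u⟩ s) δ (b.act v c) ∧ ∀ x, ‖(b.act v c).Φ x - (sc ⟨a, u⟩ s).Φ x‖ ≤ s / 2 :=
    fun c hs => by
      obtain ⟨v, v1, v2⟩ := C f hf (CB_mono (CB_of_le hc (le_max_right _ _)) (min_le_right _ _)) c hs
      exact ⟨v, v1, ⟨fun i x => (v2.a i x).trans (min_le_left _ _),
        fun x => (v2.Φ x).trans (min_le_left _ _), v2.g⟩, fun x => (v2.Φ x).trans (min_le_right _ _)⟩
  have S := (sol_sft H.w h0).2 ⟨c1, c2.trans D0, c3⟩
  obtain ⟨v, v1, v2, v3⟩ := N c S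
  obtain ⟨x⟩ : Nonempty X.M := inferInstance
  refine ⟨c, S, ⟨x, fun h => ?_⟩, fun c' S' => ?_⟩
  · have k := norm_sub_norm_le ((sc ⟨a, u⟩ s).Φ x) ((b.act v c).Φ x)
    rw [n0, Pb50.norm_act hb (v1.2 x), h, norm_zero, norm_sub_rev] at k
    linarith [v3 x]
  · obtain ⟨v', w1, w2, -⟩ := N c' S'
    obtain ⟨k1, k2, k3⟩ := (sol_sft H.w h0).1 S'
    have z : ∀ {c v}, b.Adm c → Gau X.I v → b.eD c = 0 → b.eD (b.act v c) = 0 :=
      fun hc hv h => funext fun x => by rw [Cyl58.eD_act hb hc hv, h]; simp [cs]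
    have e := L _ _ (Cyl58.adm_act hb c1 v1) (Cyl58.adm_act hb k1 w1) v2 w2
      ((z c1 v1 (c2.trans D0)).trans (z k1 w1 k2).symm) (by
        rw [Cyl58.eC_act hb c1 v1, Cyl58.eC_act hb k1 w1]
        exact funext fun x => (c3 x).trans (k3 x).symm)
    have t := (Cyl58.gau_star b.F w1).1
    refine ⟨_, (Cyl58.gau_mul b.F t v1).1, ?_⟩
    change c' = b.act _ c
    rw [← Pb50.act_act hb v1 t, e, Pb50.act_act hb w1 t,
      funext fun x => Pb50.star_mul_one (w1.2 x), Pb50.act_one]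

variable (κ lam ν) in
theorem anStmt : AnStmt κ lam ν :=
  an (luStmt κ lam ν) (exStmt κ lam ν) (St29.U0.u0Stmt κ lam ν) (Tcl71.clStmt κ lam ν)

/-- **TAUB-S** from the canonical module -/
theorem taub_of (h : CanStmt) : Bor5.T.Taub (Sw87.Mo.QM Rad94.Ex1) := Tgeo51.geo h (anStmt _ _ _)

end Crest.Agent.X212.Tbs74
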